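import Vale.Agent.P112.H30.JN

/-!
# The arc lemma

`u` is a field which is 1-Lipschitz in `y`.  Tube `0` is given by a measurable set
`T` of times (an interval) and the line `y = c0 + s0 x`.  We look at dense tubes `i` with
`I i ⊆ T`, of length `l i ≤ η / 8`, which cross the line of tube `0` at an angle
`|s i - s0| ≥ 8 (A + 3) w / (l i η)`.  Outside a set of measure `2 ^ (-(m / K)) |T|` of times `x`
the slopes of the tubes which cross at time `x` are covered by fewer than `m` relative arcs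
`{s : |s - c'| ≤ 4 η |c' - s0|}`.
-/

open MeasureTheory Set
open scoped ENNReal

namespace Vale.Agent.P112.H51

open Vale.Agent.P112.H30

/-- sign of a Boolean -/
def sg (b : Bool) : ℝ := if b then 1 else -1

theorem sg_true : sg true = 1 := rfl

theorem sg_false : sg false = -1 := rfl

/-- the relative arc of ratio `q` with index `b` around `s0` -/
def arcOf (q s0 : ℝ) (b : Bool × ℤ) : Set ℝ :=
  {v | q ^ b.2 ≤ sg b.1 * (v - s0) ∧ sg b.1 * (v - s0) < q ^ (b.2 + 1)}

theorem arcOf_meas (q s0 : ℝ) (b : Bool × ℤ) : MeasurableSet (arcOf q s0 b) := by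
  have h : Measurable fun v : ℝ => sg b.1 * (v - s0) := by fun_prop
  exact (measurableSet_le measurable_const h).inter (measurableSet_lt h measurable_const)

theorem arcOf_disj {q s0 : ℝ} (hq : 1 < q) {b b' : Bool × ℤ} (h : b ≠ b') :
    Disjoint (arcOf q s0 b) (arcOf q s0 b') := by
  rw [Set.disjoint_left]
  intro v hv hv'
  have hq0 : 0 < q := by linarith
  have hp : 0 < sg b.1 * (v - s0) := lt_of_lt_of_le (zpow_pos hq0 _) hv.1
  have hp' : 0 < sg b'.1 * (v - s0) := lt_of_lt_of_le (zpow_pos hq0 _) hv'.1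
  have hs : b.1 = b'.1 := by
    rcases Bool.eq_false_or_eq_true b.1 with h1 | h1 <;>
      rcases Bool.eq_false_or_eq_true b'.1 with h2 | h2 <;>
      rw [h1] at hp <;> rw [h2] at hp' <;>
      simp only [sg_true, sg_false] at hp hp' <;> first | (exfalso; linarith) | (rw [h1, h2])
  apply h
  refine Prod.ext hs ?_
  have h1 : q ^ b.2 < q ^ (b'.2 + 1) := by
    have := hv'.2
    rw [← hs] at this
    exact lt_of_le_of_lt hv.1 this
  have h2 : q ^ b'.2 < q ^ (b.2 + 1) := by
    have := hv'.1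
    rw [← hs] at this
    exact lt_of_le_of_lt this hv.2
  have h3 := (zpow_lt_zpow_iff_right₀ hq).1 h1
  have h4 := (zpow_lt_zpow_iff_right₀ hq).1 h2
  omega

theorem exists_arcOf {q s0 v : ℝ} (hq : 1 < q) (hv : v ≠ s0) : ∃ b, v ∈ arcOf q s0 b := by
  rcases lt_or_gt_of_ne hv with h | h
  · obtain ⟨n, hn⟩ := exists_mem_Ico_zpow (x := s0 - v) (y := q) (by linarith) hq
    exact ⟨(false, n), by
      simp only [arcOf, sg_false, mem_ofPred_eq]
      exact ⟨by linarith [hn.1], by linarith [hn.2]⟩⟩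
  · obtain ⟨n, hn⟩ := exists_mem_Ico_zpow (x := v - s0) (y := q) (by linarith) hq
    exact ⟨(true, n), by
      simp only [arcOf, sg_true, mem_ofPred_eq]
      exact ⟨by linarith [hn.1], by linarith [hn.2]⟩⟩

/-- the lower end point of an arc -/
noncomputable def low (q s0 : ℝ) (b : Bool × ℤ) : ℝ := s0 + sg b.1 * q ^ b.2

theorem sg_sq (b : Bool) : sg b * sg b = 1 := by
  cases b <;> simp [sg]

theorem abs_sg (b : Bool) : |sg b| = 1 := by
  cases b <;> simp [sg]

/-- If `s` is in the arc `b` and `v` is within `(η / 4) |s - s0|` of `s`, then `v` is in one of the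
three arcs around `b`. -/
theorem three_arcs {η s0 s v : ℝ} (hη0 : 0 < η) (hη1 : η ≤ 1 / 4) {b : Bool × ℤ}
    (hs : s ∈ arcOf (1 + η) s0 b) (hv : |v - s| ≤ η / 4 * |s - s0|) :
    v ∈ arcOf (1 + η) s0 (b.1, b.2 - 1) ∨ v ∈ arcOf (1 + η) s0 b ∨
      v ∈ arcOf (1 + η) s0 (b.1, b.2 + 1) := by
  have hq0 : 0 < 1 + η := by linarith
  have hpos : 0 < (1 + η) ^ b.2 := zpow_pos hq0 _
  set t := sg b.1 * (s - s0) with ht
  have ht0 : 0 < t := lt_of_lt_of_le hpos hs.1
  have habs : |s - s0| = t := by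
    have h1 : |t| = |s - s0| := by rw [ht, abs_mul, abs_sg, one_mul]
    rw [← h1, abs_of_pos ht0]
  rw [habs] at hv
  set r := sg b.1 * (v - s0) with hr
  have hrt : |r - t| ≤ η / 4 * t := by
    have : r - t = sg b.1 * (v - s) := by rw [hr, ht]; ring
    rw [this, abs_mul, abs_sg, one_mul]
    exact hv
  have h1 := abs_le.1 hrt
  have hz1 : (1 + η) ^ (b.2 + 1) = (1 + η) ^ b.2 * (1 + η) := by
    rw [zpow_add₀ hq0.ne', zpow_one]
  have hz2 : (1 + η) ^ (b.2 + 1 + 1) = (1 + η) ^ b.2 * (1 + η) * (1 + η) := by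
    rw [zpow_add₀ hq0.ne', hz1, zpow_one]
  have hz3 : (1 + η) ^ b.2 = (1 + η) ^ (b.2 - 1) * (1 + η) := by
    rw [← zpow_add_one₀ hq0.ne']; congr 1; ring
  have hpos3 : 0 < (1 + η) ^ (b.2 - 1) := zpow_pos hq0 _
  have hs1 : (1 + η) ^ b.2 ≤ t := hs.1
  have hs2 : t < (1 + η) ^ b.2 * (1 + η) := by rw [← hz1]; exact hs.2
  rcases lt_or_ge r ((1 + η) ^ b.2) with h2 | h2
  · left
    refine ⟨?_, ?_⟩
    · show (1 + η) ^ (b.2 - 1) ≤ r
      have h3 : (1 - η / 4) * t ≤ r := by linarith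
      have h4 : (1 - η / 4) * ((1 + η) ^ (b.2 - 1) * (1 + η)) ≤ (1 - η / 4) * t := by
        rw [← hz3]
        exact mul_le_mul_of_nonneg_left hs1 (by linarith)
      nlinarith [mul_pos hη0 hpos3, mul_nonneg (mul_nonneg hη0.le hη0.le) hpos3.le]
    · show r < (1 + η) ^ (b.2 - 1 + 1)
      rw [show b.2 - 1 + 1 = b.2 by ring]
      exact h2
  · rcases lt_or_ge r ((1 + η) ^ (b.2 + 1)) with h3 | h3
    · right; left
      exact ⟨h2, h3⟩
    · right; right
      refine ⟨h3, ?_⟩
      show r < (1 + η) ^ (b.2 + 1 + 1)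
      rw [hz2]
      have h4 : r ≤ (1 + η / 4) * t := by linarith
      have h5 : (1 + η / 4) * t < (1 + η / 4) * ((1 + η) ^ b.2 * (1 + η)) :=
        mul_lt_mul_of_pos_left hs2 (by linarith)
      have h6 : (1 + η / 4) * ((1 + η) ^ b.2 * (1 + η)) ≤ (1 + η) ^ b.2 * (1 + η) * (1 + η) := by
        have : 0 < (1 + η) ^ b.2 * (1 + η) := mul_pos hpos hq0
        nlinarith
      linarith

/-- If `s` and the arc `b'` are within one step, `s` is close to the lower end of `b'`. -/
theorem near_low {η s0 s : ℝ} (hη0 : 0 < η) (hη1 : η ≤ 1 / 4) {b b' : Bool × ℤ}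
    (hs : s ∈ arcOf (1 + η) s0 b) (h1 : b'.1 = b.1) (h2 : b'.2 = b.2 - 1 ∨ b'.2 = b.2 ∨
      b'.2 = b.2 + 1) :
    |s - low (1 + η) s0 b'| ≤ 4 * η * |low (1 + η) s0 b' - s0| := by
  have hq0 : 0 < 1 + η := by linarith
  have hpos : 0 < (1 + η) ^ b'.2 := zpow_pos hq0 _
  have e1 : low (1 + η) s0 b' - s0 = sg b'.1 * (1 + η) ^ b'.2 := by rw [low]; ring
  have e2 : |low (1 + η) s0 b' - s0| = (1 + η) ^ b'.2 := by
    rw [e1, abs_mul, abs_sg, one_mul, abs_of_pos hpos]
  have e3 : |s - low (1 + η) s0 b'| = |sg b.1 * (s - s0) - (1 + η) ^ b'.2| := by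
    have : sg b.1 * (s - low (1 + η) s0 b') = sg b.1 * (s - s0) - (1 + η) ^ b'.2 := by
      rw [low, h1]
      have := sg_sq b.1
      linear_combination (-(1 + η) ^ b'.2) * this
    rw [← this, abs_mul, abs_sg, one_mul]
  rw [e2, e3]
  have hs1 : (1 + η) ^ b.2 ≤ sg b.1 * (s - s0) := hs.1
  have hs2 : sg b.1 * (s - s0) < (1 + η) ^ (b.2 + 1) := hs.2
  set t := sg b.1 * (s - s0) with ht
  rw [abs_le]
  rcases h2 with h2 | h2 | h2
  · -- b'.2 = b.2 - 1
    have hb : b.2 = b'.2 + 1 := by omega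
    rw [hb, zpow_add_one₀ hq0.ne'] at hs1
    rw [hb, zpow_add_one₀ hq0.ne', zpow_add_one₀ hq0.ne'] at hs2
    constructor
    · nlinarith [mul_pos hη0 hpos]
    · nlinarith [mul_pos hη0 hpos, mul_nonneg (mul_nonneg hη0.le hη0.le) hpos.le]
  · rw [← h2] at hs1 hs2
    rw [zpow_add_one₀ hq0.ne'] at hs2
    constructor
    · nlinarith [mul_pos hη0 hpos]
    · nlinarith [mul_pos hη0 hpos]
  · rw [h2] at *
    rw [zpow_add_one₀ hq0.ne'] at hs2 ⊢
    have hp : 0 < (1 + η) ^ b.2 := zpow_pos hq0 _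
    constructor
    · nlinarith [mul_pos hη0 hp, mul_nonneg (mul_nonneg hη0.le hη0.le) hp.le]
    · nlinarith [mul_pos hη0 hp, mul_nonneg (mul_nonneg hη0.le hη0.le) hp.le]

/-- **Arc lemma.** -/
theorem arc {ι : Type*} (F : Finset ι) (I : ι → Set ℝ) (l s c : ι → ℝ) (u : ℝ → ℝ → ℝ)
    (hu : Measurable (Function.uncurry u)) (hLip : ∀ x y y', |u x y - u x y'| ≤ |y - y'|)
    {w A d η s0 c0 : ℝ} {T : Set ℝ} (hT : MeasurableSet T) (hw : 0 < w) (hA : 0 ≤ A)
    (hη0 : 0 < η) (hη1 : η ≤ 1 / 4) (hd : 0 < d)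
    (hImeas : ∀ i ∈ F, MeasurableSet (I i)) (hlam : ∀ i ∈ F, ∀ j ∈ F, Nd (I i) (I j))
    (hdiam : ∀ i ∈ F, ∀ x ∈ I i, ∀ x' ∈ I i, |x - x'| ≤ l i)
    (hvol : ∀ i ∈ F, volume (I i) = ENNReal.ofReal (l i)) (hl0 : ∀ i ∈ F, 0 < l i)
    (hlη : ∀ i ∈ F, 8 * l i ≤ η)
    (hsep : ∀ i ∈ F, 8 * ((A + 3) * w / l i) ≤ η * |s i - s0|)
    (hdense : ∀ i ∈ F, ENNReal.ofReal (d * (2 * w * l i)) ≤ volume
      {z : ℝ × ℝ | z.1 ∈ I i ∧ |z.2 - (c i + s i * z.1)| ≤ w ∧ |u z.1 z.2 - s i| ≤ A * w / l i})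
    (K : ℕ) (hK0 : 0 < K) (hK : 6 ≤ d * K) (m : ℕ) :
    volume {x ∈ T | ¬ ∃ C : Finset ℝ, C.card < m ∧ ∀ i ∈ F, I i ⊆ T → x ∈ I i →
      |(c i + s i * x) - (c0 + s0 * x)| ≤ 2 * w → ∃ c' ∈ C, |s i - c'| ≤ 4 * η * |c' - s0|} ≤
      (1 / 2) ^ (m / K) * volume T := by
  classical
  -- the tubes which cross
  set F' : Finset ι := F.filter (fun i => ∃ x ∈ I i, |(c i + s i * x) - (c0 + s0 * x)| ≤ 2 * w)
    with hF'
  have hmemF' : ∀ i ∈ F', i ∈ F := fun i hi => (Finset.mem_filter.1 hi).1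
  set u0 : ℝ → ℝ := fun x => u x (c0 + s0 * x) with hu0
  have hu0m : Measurable u0 := by
    have : u0 = fun x => Function.uncurry u (x, c0 + s0 * x) := rfl
    rw [this]
    exact hu.comp (by fun_prop)
  have hq : (1 : ℝ) < 1 + η := by linarith
  have hne : ∀ i ∈ F, s i ≠ s0 := by
    intro i hi h
    have h1 := hsep i hi
    rw [h, sub_self, abs_zero, mul_zero] at h1
    have : 0 < 8 * ((A + 3) * w / l i) := by have := hl0 i hi; positivity
    linarith
  -- the good times of tube `i`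
  set G : ι → Set ℝ := fun i => I i ∩ {x | |u0 x - s i| ≤ η / 4 * |s i - s0|} with hG
  have hGm : ∀ i ∈ F, MeasurableSet (G i) := by
    intro i hi
    refine (hImeas i hi).inter ?_
    have : Measurable fun x => |u0 x - s i| := by fun_prop
    exact measurableSet_le this measurable_const
  have hGvol : ∀ i ∈ F', ENNReal.ofReal (d * l i) ≤ volume (G i) := by
    intro i hi
    have hiF := hmemF' i hi
    obtain ⟨x0, hx0, hx0c⟩ := (Finset.mem_filter.1 hi).2
    have hl := hl0 i hiF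
    set V : Set (ℝ × ℝ) := {z : ℝ × ℝ | z.1 ∈ I i ∧ |z.2 - (c i + s i * z.1)| ≤ w ∧
      |u z.1 z.2 - s i| ≤ A * w / l i} with hV
    set W : Set (ℝ × ℝ) := {z : ℝ × ℝ | z.1 ∈ G i ∧ z.2 ∈ Icc (c i + s i * z.1 - w)
      (c i + s i * z.1 + w)} with hW
    have hsub : V ⊆ W := by
      rintro ⟨x, y⟩ ⟨hx, hy, huz⟩
      simp only at hx hy huz
      refine ⟨⟨hx, ?_⟩, ?_⟩
      · show |u x (c0 + s0 * x) - s i| ≤ η / 4 * |s i - s0|
        have h1 := hLip x y (c0 + s0 * x)
        have h2 : |y - (c0 + s0 * x)| ≤ w + (2 * w + |s i - s0| * l i) := by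
          have e : y - (c0 + s0 * x) = (y - (c i + s i * x)) +
              (((c i + s i * x0) - (c0 + s0 * x0)) + (s i - s0) * (x - x0)) := by ring
          rw [e]
          refine (abs_add_le _ _).trans (add_le_add hy ((abs_add_le _ _).trans
            (add_le_add hx0c ?_)))
          rw [abs_mul]
          exact mul_le_mul_of_nonneg_left (hdiam i hiF x hx x0 hx0) (abs_nonneg _)
        have h3 : |u x (c0 + s0 * x) - s i| ≤ |u x y - s i| + |u x y - u x (c0 + s0 * x)| := by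
          have e : u x (c0 + s0 * x) - s i = (u x y - s i) - (u x y - u x (c0 + s0 * x)) := by ring
          rw [e]; exact abs_sub _ _
        have h4 : 3 * w ≤ 3 * w / l i := by
          rw [le_div_iff₀ hl]
          have := hlη i hiF
          nlinarith
        have h5 := hsep i hiF
        have h6 : (A + 3) * w / l i = A * w / l i + 3 * w / l i := by ring
        have h7 : |s i - s0| * l i ≤ |s i - s0| * (η / 8) :=
          mul_le_mul_of_nonneg_left (by linarith [hlη i hiF]) (abs_nonneg _)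
        rw [h6] at h5
        nlinarith
      · have := abs_le.1 hy
        exact ⟨by linarith [this.1], by linarith [this.2]⟩
    have hWvol : volume W = volume (G i) * ENNReal.ofReal (2 * w) := by
      have hWm : MeasurableSet W := by
        have h1 : Measurable fun z : ℝ × ℝ => z.2 - (c i + s i * z.1) := by fun_prop
        have e : W = (Prod.fst ⁻¹' (G i)) ∩ {z : ℝ × ℝ | |z.2 - (c i + s i * z.1)| ≤ w} := by
          ext z
          simp only [hW, mem_ofPred_eq, mem_inter_iff, mem_preimage, mem_Icc, abs_le]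
          constructor
          · rintro ⟨h1, h2, h3⟩; exact ⟨h1, by linarith, by linarith⟩
          · rintro ⟨h1, h2, h3⟩; exact ⟨h1, by linarith, by linarith⟩
        rw [e]
        refine (measurable_fst (hGm i hiF)).inter ?_
        exact measurableSet_le (continuous_abs.measurable.comp h1) measurable_const
      rw [Measure.volume_eq_prod, Measure.prod_apply hWm]
      have hsec : ∀ x, volume (Prod.mk x ⁻¹' W) =
          (G i).indicator (fun _ => ENNReal.ofReal (2 * w)) x := by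
        intro x
        by_cases hx : x ∈ G i
        · have : Prod.mk x ⁻¹' W = Icc (c i + s i * x - w) (c i + s i * x + w) := by
            ext y
            simp only [hW, mem_preimage, mem_ofPred_eq]
            exact ⟨fun h => h.2, fun h => ⟨hx, h⟩⟩
          rw [this, Real.volume_Icc, indicator_of_mem hx]
          congr 1; ring
        · have : Prod.mk x ⁻¹' W = ∅ := by
            ext y
            simp only [hW, mem_preimage, mem_ofPred_eq, mem_empty_iff_false, iff_false]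
            exact fun h => hx h.1
          rw [this, measure_empty, indicator_of_notMem hx]
      simp_rw [hsec]
      rw [lintegral_indicator (hGm i hiF), lintegral_const, Measure.restrict_apply_univ, mul_comm]
    have h1 : ENNReal.ofReal (d * (2 * w * l i)) ≤ volume (G i) * ENNReal.ofReal (2 * w) :=
      (hdense i hiF).trans ((measure_mono hsub).trans hWvol.le)
    have h2 : ENNReal.ofReal (d * (2 * w * l i)) =
        ENNReal.ofReal (d * l i) * ENNReal.ofReal (2 * w) := by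
      rw [← ENNReal.ofReal_mul (by positivity)]
      congr 1; ring
    rw [h2] at h1
    have h3 : ENNReal.ofReal (2 * w) ≠ 0 := by
      rw [Ne, ENNReal.ofReal_eq_zero]; linarith
    exact (ENNReal.mul_le_mul_iff_left h3 ENNReal.ofReal_ne_top).1 h1
  -- the popular arc of tube `i`
  have hchoose : ∀ i ∈ F', ∃ b : Bool × ℤ,
      (|s i - low (1 + η) s0 b| ≤ 4 * η * |low (1 + η) s0 b - s0|) ∧
      ENNReal.ofReal (d / 3 * l i) ≤ volume ({x | u0 x ∈ arcOf (1 + η) s0 b} ∩ I i) := by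
    intro i hi
    have hiF := hmemF' i hi
    obtain ⟨b, hb⟩ := exists_arcOf hq (hne i hiF)
    by_contra hcon
    push Not at hcon
    have c1 := hcon (b.1, b.2 - 1) (near_low hη0 hη1 hb rfl (Or.inl rfl))
    have c2 := hcon b (near_low hη0 hη1 hb rfl (Or.inr (Or.inl rfl)))
    have c3 := hcon (b.1, b.2 + 1) (near_low hη0 hη1 hb rfl (Or.inr (Or.inr rfl)))
    have hsub : G i ⊆ ({x | u0 x ∈ arcOf (1 + η) s0 (b.1, b.2 - 1)} ∩ I i) ∪
        (({x | u0 x ∈ arcOf (1 + η) s0 b} ∩ I i) ∪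
          ({x | u0 x ∈ arcOf (1 + η) s0 (b.1, b.2 + 1)} ∩ I i)) := by
      rintro x ⟨hx1, hx2⟩
      rcases three_arcs hη0 hη1 hb hx2 with h | h | h
      · exact Or.inl ⟨h, hx1⟩
      · exact Or.inr (Or.inl ⟨h, hx1⟩)
      · exact Or.inr (Or.inr ⟨h, hx1⟩)
    have h1 := (hGvol i hi).trans ((measure_mono hsub).trans ((measure_union_le _ _).trans
      (add_le_add le_rfl (measure_union_le _ _))))
    have hl := hl0 i hiF
    have h2 : ENNReal.ofReal (d * l i) = ENNReal.ofReal (d / 3 * l i) +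
        (ENNReal.ofReal (d / 3 * l i) + ENNReal.ofReal (d / 3 * l i)) := by
      rw [← ENNReal.ofReal_add (by positivity) (by positivity),
        ← ENNReal.ofReal_add (by positivity) (by positivity)]
      congr 1; ring
    rw [h2] at h1
    exact absurd h1 (not_le.2 (ENNReal.add_lt_add c1 (ENNReal.add_lt_add c2 c3)))
  choose! β hβ1 hβ2 using hchoose
  set B : Finset (Bool × ℤ) := F'.image β with hB
  set P : Bool × ℤ → Finset ι := fun b => F'.filter (fun i => β i = b) with hP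
  have hjn := jn_idx (μ := volume) B P I (fun b => {x | u0 x ∈ arcOf (1 + η) s0 b}) (d / 3)
    (by
      intro b _ b' _ J hJ J' hJ'
      exact hlam J (hmemF' _ (Finset.mem_filter.1 hJ).1) J' (hmemF' _ (Finset.mem_filter.1 hJ').1))
    (by
      intro b _ J hJ
      exact hImeas J (hmemF' _ (Finset.mem_filter.1 hJ).1))
    (by
      intro b _
      exact hu0m (arcOf_meas _ _ _))
    (by
      intro b _ b' _ hbb
      exact Disjoint.preimage u0 (arcOf_disj hq hbb))
    (by
      intro b _ J hJ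
      have hJ1 := (Finset.mem_filter.1 hJ).1
      have hJ2 := (Finset.mem_filter.1 hJ).2
      rw [hvol J (hmemF' _ hJ1), ← ENNReal.ofReal_mul (by positivity), ← hJ2]
      exact hβ2 J hJ1)
    K hK0 (by linarith) m T hT
  refine le_trans (measure_mono ?_) hjn
  rintro x ⟨hxT, hx⟩
  refine ⟨hxT, ?_⟩
  by_contra hlt
  push Not at hlt
  apply hx
  refine ⟨(B.filter (fun b => ∃ J ∈ P b, I J ⊆ T ∧ x ∈ I J)).image (low (1 + η) s0),
    lt_of_le_of_lt Finset.card_image_le ?_, ?_⟩
  · refine lt_of_le_of_lt (le_of_eq ?_) hlt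
    unfold cntI
    congr
  · intro i hi hiT hxi hcross
    have hiF' : i ∈ F' := Finset.mem_filter.2 ⟨hi, x, hxi, hcross⟩
    refine ⟨low (1 + η) s0 (β i), ?_, hβ1 i hiF'⟩
    rw [Finset.mem_image]
    refine ⟨β i, ?_, rfl⟩
    rw [Finset.mem_filter]
    exact ⟨Finset.mem_image_of_mem β hiF', i, Finset.mem_filter.2 ⟨hiF', rfl⟩, hiT, hxi⟩

end Vale.Agent.P112.H51
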