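import Vale.Agent.P112.H646.Node
import Vale.Agent.P112.H22.Young

/-!
# P112 [H]: block (SEG), the group step on one segment
-/

open MeasureTheory

noncomputable section

namespace Vale.Agent.P112.H51

open Vale.Agent.P112.H646

/-- each coefficient is below the gauge -/
theorem norm_le_gg {ι : Type} {β : ℝ} (hβ : 0 < β) (P : Finset ι) (c : ι → ℂ) {i : ι}
    (hi : i ∈ P) : ‖c i‖ ≤ gg β P c := by
  unfold gg
  calc ‖c i‖ = (‖c i‖ ^ (1 / β)) ^ β := by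
        rw [← Real.rpow_mul (norm_nonneg _), one_div_mul_cancel hβ.ne', Real.rpow_one]
    _ ≤ _ := by
        refine Real.rpow_le_rpow (by positivity) ?_ hβ.le
        exact Finset.single_le_sum (f := fun i => ‖c i‖ ^ (1 / β)) (fun _ _ => by positivity) hi

theorem gg_pos {ι : Type} {β : ℝ} (hβ : 0 < β) {P : Finset ι} (hP : P.Nonempty) {c : ι → ℂ}
    (hc : ∀ i ∈ P, c i ≠ 0) : 0 < gg β P c := by
  obtain ⟨i, hi⟩ := hP
  exact lt_of_lt_of_le (norm_pos_iff.mpr (hc i hi)) (norm_le_gg hβ P c hi)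

theorem pow4_le {ι : Type} {β : ℝ} (hβ : 0 < β) {K : ℕ} {P : Finset ι} (hK : P.card ≤ K)
    (c : ι → ℂ) (hM : 0 < gg β P c) :
    (∑ i ∈ P, ‖c i‖) ^ 4 / gg β P c ^ 2 ≤ K ^ 3 * ∑ i ∈ P, ‖c i‖ ^ 2 := by
  rw [div_le_iff₀ (by positivity)]
  have hK' : (P.card : ℝ) ≤ K := by exact_mod_cast hK
  have h1 : ∑ i ∈ P, ‖c i‖ ≤ K * gg β P c := by
    calc ∑ i ∈ P, ‖c i‖ ≤ ∑ i ∈ P, gg β P c := Finset.sum_le_sum fun i hi => norm_le_gg hβ P c hi
      _ = P.card * gg β P c := by simp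
      _ ≤ K * gg β P c := mul_le_mul_of_nonneg_right hK' hM.le
  have h0 : 0 ≤ ∑ i ∈ P, ‖c i‖ := Finset.sum_nonneg fun _ _ => norm_nonneg _
  have h0' : 0 ≤ ∑ i ∈ P, ‖c i‖ ^ 2 := Finset.sum_nonneg fun _ _ => by positivity
  have h2 : (∑ i ∈ P, ‖c i‖) ^ 2 ≤ K * ∑ i ∈ P, ‖c i‖ ^ 2 := by
    have := sq_sum_le_card_mul_sum_sq (s := P) (f := fun i => ‖c i‖)
    exact this.trans (mul_le_mul_of_nonneg_right hK' h0')
  calc (∑ i ∈ P, ‖c i‖) ^ 4 = (∑ i ∈ P, ‖c i‖) ^ 2 * (∑ i ∈ P, ‖c i‖) ^ 2 := by ring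
    _ ≤ (K * ∑ i ∈ P, ‖c i‖ ^ 2) * (K * gg β P c) ^ 2 := by gcongr
    _ = _ := by ring

theorem norm_exp_sub_le (a b : ℝ) :
    ‖Complex.exp (Complex.I * (a : ℝ)) - Complex.exp (Complex.I * (b : ℝ))‖ ≤ |a - b| := by
  have h : Complex.exp (Complex.I * (a : ℝ)) - Complex.exp (Complex.I * (b : ℝ)) =
      Complex.exp ((b : ℝ) * Complex.I) * (Complex.exp (Complex.I * ((a - b : ℝ) : ℂ)) - 1) := by
    rw [mul_sub, ← Complex.exp_add, mul_one]
    congr 2
    · push_cast; ring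
    · ring
  rw [h, norm_mul, Complex.norm_exp_ofReal_mul_I, one_mul]
  exact (Real.norm_exp_I_mul_ofReal_sub_one_le (x := a - b)).trans (le_of_eq (Real.norm_eq_abs _))

theorem norm_ff_sub_le {ι : Type} (η : ℝ) (s : ι → ℝ) (g : Finset ι) (c : ι → ℂ) (σ D t : ℝ)
    (h : ∀ i ∈ g, |η * s i * t - η * σ * t| ≤ D) :
    ‖ff η s g c t - (∑ i ∈ g, c i) * Complex.exp (Complex.I * (η * σ * t : ℝ))‖ ≤
      (∑ i ∈ g, ‖c i‖) * D := by
  unfold ff
  rw [Finset.sum_mul, ← Finset.sum_sub_distrib, Finset.sum_mul]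
  refine norm_sum_le_of_le _ fun i hi => ?_
  rw [← mul_sub, norm_mul]
  exact mul_le_mul_of_nonneg_left ((norm_exp_sub_le _ _).trans (h i hi)) (norm_nonneg _)

theorem norm_ff_le {ι : Type} (η : ℝ) (s : ι → ℝ) (g : Finset ι) (c : ι → ℂ) (t : ℝ) :
    ‖ff η s g c t‖ ≤ ∑ i ∈ g, ‖c i‖ := by
  unfold ff
  refine norm_sum_le_of_le _ fun i hi => ?_
  rw [norm_mul, mul_comm Complex.I, Complex.norm_exp_ofReal_mul_I, mul_one]

theorem pow4_sub_le {x y S D : ℝ} (hx : 0 ≤ x) (hy : 0 ≤ y) (hxS : x ≤ S) (hyS : y ≤ S)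
    (h : |x - y| ≤ D) : x ^ 4 ≤ y ^ 4 + 4 * S ^ 3 * D := by
  have hS : 0 ≤ S := hx.trans hxS
  have hD : 0 ≤ D := (abs_nonneg _).trans h
  have e : x ^ 4 - y ^ 4 = (x - y) * (x ^ 3 + x ^ 2 * y + x * y ^ 2 + y ^ 3) := by ring
  have h1 : x ^ 3 + x ^ 2 * y + x * y ^ 2 + y ^ 3 ≤ 4 * S ^ 3 := by
    have a1 : x ^ 3 ≤ S ^ 3 := pow_le_pow_left₀ hx hxS 3
    have a2 : y ^ 3 ≤ S ^ 3 := pow_le_pow_left₀ hy hyS 3
    have a3 : x ^ 2 * y ≤ S ^ 2 * S := by gcongr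
    have a4 : x * y ^ 2 ≤ S * S ^ 2 := by gcongr
    nlinarith
  have h2 : (x - y) * (x ^ 3 + x ^ 2 * y + x * y ^ 2 + y ^ 3) ≤ D * (4 * S ^ 3) := by
    refine mul_le_mul ((le_abs_self _).trans h) h1 (by positivity) hD
  linarith

theorem norm_int_le {ω l : ℝ} (hl : 0 ≤ l) :
    ‖∫ t in (0:ℝ)..l, Complex.exp (Complex.I * (ω * t : ℝ))‖ ≤ l := by
  have := intervalIntegral.norm_integral_le_of_norm_le_const (a := 0) (b := l) (C := 1)
    (f := fun t : ℝ => Complex.exp (Complex.I * (ω * t : ℝ)))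
    (fun t _ => by rw [mul_comm, Complex.norm_exp_ofReal_mul_I])
  simpa [abs_of_nonneg hl] using this

theorem norm_int_le' {ω l : ℝ} (hω : ω ≠ 0) :
    ‖∫ t in (0:ℝ)..l, Complex.exp (Complex.I * (ω * t : ℝ))‖ ≤ 2 / |ω| := by
  have h : (fun t : ℝ => Complex.exp (Complex.I * (ω * t : ℝ))) =
      fun t : ℝ => Complex.exp ((Complex.I * ω) * t) := by
    funext t
    congr 1
    push_cast
    ring
  have hne : Complex.I * (ω : ℂ) ≠ 0 :=
    mul_ne_zero Complex.I_ne_zero (by exact_mod_cast hω)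
  rw [h, integral_exp_mul_complex hne, norm_div]
  have e1 : ‖Complex.I * (ω : ℂ)‖ = |ω| := by simp
  rw [e1]
  have hpos : 0 < |ω| := abs_pos.mpr hω
  refine div_le_div_of_nonneg_right ?_ hpos.le
  have e2 : ∀ x : ℝ, ‖Complex.exp (Complex.I * ω * x)‖ = 1 := by
    intro x
    have : Complex.I * ω * x = ((ω * x : ℝ) : ℂ) * Complex.I := by push_cast; ring
    rw [this, Complex.norm_exp_ofReal_mul_I]
  calc _ ≤ ‖Complex.exp (Complex.I * ω * l)‖ + ‖Complex.exp (Complex.I * ω * (0:ℝ))‖ :=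
        norm_sub_le _ _
    _ = 2 := by rw [e2, e2]; norm_num

theorem sum4 {τ : Type} [Fintype τ] {R : Type} [CommSemiring R] (u v : τ → R) :
    (∑ i, u i) * (∑ i, u i) * (∑ i, v i) * (∑ i, v i) =
      ∑ i, ∑ j, ∑ k, ∑ n, u i * u j * v k * v n := by
  rw [mul_assoc, Finset.sum_mul_sum, Finset.sum_mul_sum, Finset.sum_mul]
  refine Finset.sum_congr rfl fun i _ => ?_
  rw [Finset.sum_mul]
  refine Finset.sum_congr rfl fun j _ => ?_
  rw [Finset.mul_sum]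
  refine Finset.sum_congr rfl fun k _ => ?_
  rw [Finset.mul_sum]
  refine Finset.sum_congr rfl fun n _ => ?_
  ring

/-- the expansion of the fourth power -/
theorem pow4_expand {τ : Type} [Fintype τ] (σ : τ → ℝ) (b : τ → ℂ) (η t : ℝ) :
    (((‖∑ g, b g * Complex.exp (Complex.I * (η * σ g * t : ℝ))‖ ^ 4 : ℝ)) : ℂ) =
      ∑ i, ∑ j, ∑ k, ∑ n, b i * b j * (starRingEnd ℂ) (b k) * (starRingEnd ℂ) (b n) *
        Complex.exp (Complex.I * ((η * (σ i + σ j - σ k - σ n)) * t : ℝ)) := by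
  set B : ℂ := ∑ g, b g * Complex.exp (Complex.I * (η * σ g * t : ℝ)) with hB
  have h1 : ((‖B‖ ^ 4 : ℝ) : ℂ) = B * B * (starRingEnd ℂ) B * (starRingEnd ℂ) B := by
    have : B * (starRingEnd ℂ) B = ((‖B‖ ^ 2 : ℝ) : ℂ) := by
      rw [Complex.mul_conj, Complex.normSq_eq_norm_sq]
    calc ((‖B‖ ^ 4 : ℝ) : ℂ) = ((‖B‖ ^ 2 : ℝ) : ℂ) * ((‖B‖ ^ 2 : ℝ) : ℂ) := by
          push_cast; ring
      _ = (B * (starRingEnd ℂ) B) * (B * (starRingEnd ℂ) B) := by rw [this]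
      _ = _ := by ring
  rw [h1]
  have h2 : (starRingEnd ℂ) B =
      ∑ g, (starRingEnd ℂ) (b g) * Complex.exp (-(Complex.I * (η * σ g * t : ℝ))) := by
    rw [hB, map_sum]
    refine Finset.sum_congr rfl fun g _ => ?_
    rw [map_mul, ← Complex.exp_conj, map_mul, Complex.conj_I, Complex.conj_ofReal, neg_mul]
  rw [h2, hB, sum4]
  refine Finset.sum_congr rfl fun i _ => Finset.sum_congr rfl fun j _ =>
    Finset.sum_congr rfl fun k _ => Finset.sum_congr rfl fun n _ => ?_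
  have h3 : Complex.exp (Complex.I * ((η * (σ i + σ j - σ k - σ n)) * t : ℝ)) =
      Complex.exp (Complex.I * (η * σ i * t : ℝ)) * Complex.exp (Complex.I * (η * σ j * t : ℝ)) *
        Complex.exp (-(Complex.I * (η * σ k * t : ℝ))) *
        Complex.exp (-(Complex.I * (η * σ n * t : ℝ))) := by
    rw [← Complex.exp_add, ← Complex.exp_add, ← Complex.exp_add]
    congr 1
    push_cast
    ring
  rw [h3]
  ring

theorem int_term_le (ω l η ρ : ℝ) (hl : 0 < l) (hη : η ≠ 0) (hρ : 0 < ρ) :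
    ‖∫ t in (0:ℝ)..l, Complex.exp (Complex.I * ((η * ω) * t : ℝ))‖ ≤
      l * (if |ω| ≤ ρ then 1 else 0) + 2 / (|η| * ρ) := by
  have hη' : 0 < |η| := abs_pos.mpr hη
  by_cases h : |ω| ≤ ρ
  · rw [if_pos h, mul_one]
    have : 0 ≤ 2 / (|η| * ρ) := by positivity
    linarith [norm_int_le (ω := η * ω) hl.le]
  · rw [if_neg h, mul_zero, zero_add]
    push Not at h
    have hω : ω ≠ 0 := by
      rintro rfl
      rw [abs_zero] at h
      linarith
    refine (norm_int_le' (ω := η * ω) (mul_ne_zero hη hω)).trans ?_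
    rw [abs_mul]
    gcongr

/-- the average of `|B|⁴` -/
theorem int_B_le {τ : Type} [Fintype τ] (σ : τ → ℝ) (b : τ → ℂ) (η l ρ : ℝ) (hl : 0 < l)
    (hη : η ≠ 0) (hρ : 0 < ρ) :
    ∫ t in (0:ℝ)..l, ‖∑ g, b g * Complex.exp (Complex.I * (η * σ g * t : ℝ))‖ ^ 4 ≤
      l * (∑ i, ∑ j, ∑ k, ∑ n, (if |σ i + σ j - σ k - σ n| ≤ ρ then
        ‖b i‖ * ‖b j‖ * ‖b k‖ * ‖b n‖ else 0)) + 2 / (|η| * ρ) * (∑ g, ‖b g‖) ^ 4 := by
  have e1 : ((∫ t in (0:ℝ)..l, ‖∑ g, b g * Complex.exp (Complex.I * (η * σ g * t : ℝ))‖ ^ 4 : ℝ)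
      : ℂ) = ∑ i, ∑ j, ∑ k, ∑ n, b i * b j * (starRingEnd ℂ) (b k) * (starRingEnd ℂ) (b n) *
        ∫ t in (0:ℝ)..l, Complex.exp (Complex.I * ((η * (σ i + σ j - σ k - σ n)) * t : ℝ)) := by
    rw [← intervalIntegral.integral_ofReal]
    have hc : ∀ i j k n : τ, Continuous fun t : ℝ =>
        b i * b j * (starRingEnd ℂ) (b k) * (starRingEnd ℂ) (b n) *
        Complex.exp (Complex.I * ((η * (σ i + σ j - σ k - σ n)) * t : ℝ)) := by
      intro i j k n
      fun_prop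
    have e2 : (fun t : ℝ =>
        (((‖∑ g, b g * Complex.exp (Complex.I * (η * σ g * t : ℝ))‖ ^ 4 : ℝ)) : ℂ)) =
        fun t : ℝ => ∑ i, ∑ j, ∑ k, ∑ n,
          b i * b j * (starRingEnd ℂ) (b k) * (starRingEnd ℂ) (b n) *
          Complex.exp (Complex.I * ((η * (σ i + σ j - σ k - σ n)) * t : ℝ)) := by
      funext t
      exact pow4_expand σ b η t
    rw [e2]
    rw [intervalIntegral.integral_finsetSum fun i _ => Continuous.intervalIntegrable
      (continuous_finsetSum _ fun j _ => continuous_finsetSum _ fun k _ =>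
        continuous_finsetSum _ fun n _ => hc i j k n) _ _]
    refine Finset.sum_congr rfl fun i _ => ?_
    rw [intervalIntegral.integral_finsetSum fun j _ => Continuous.intervalIntegrable
      (continuous_finsetSum _ fun k _ => continuous_finsetSum _ fun n _ => hc i j k n) _ _]
    refine Finset.sum_congr rfl fun j _ => ?_
    rw [intervalIntegral.integral_finsetSum fun k _ => Continuous.intervalIntegrable
      (continuous_finsetSum _ fun n _ => hc i j k n) _ _]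
    refine Finset.sum_congr rfl fun k _ => ?_
    rw [intervalIntegral.integral_finsetSum fun n _ => Continuous.intervalIntegrable
      (hc i j k n) _ _]
    refine Finset.sum_congr rfl fun n _ => ?_
    rw [intervalIntegral.integral_const_mul]
  set X : ℝ := ∫ t in (0:ℝ)..l, ‖∑ g, b g * Complex.exp (Complex.I * (η * σ g * t : ℝ))‖ ^ 4
    with hX
  have e3 : X ≤ ‖(X : ℂ)‖ := by
    rw [Complex.norm_real]
    exact le_abs_self _
  refine e3.trans ?_
  rw [e1]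
  have e4 : ∀ i j k n : τ, ‖b i * b j * (starRingEnd ℂ) (b k) * (starRingEnd ℂ) (b n) *
      ∫ t in (0:ℝ)..l, Complex.exp (Complex.I * ((η * (σ i + σ j - σ k - σ n)) * t : ℝ))‖ ≤
      l * (if |σ i + σ j - σ k - σ n| ≤ ρ then ‖b i‖ * ‖b j‖ * ‖b k‖ * ‖b n‖ else 0) +
        2 / (|η| * ρ) * (‖b i‖ * ‖b j‖ * ‖b k‖ * ‖b n‖) := by
    intro i j k n
    rw [norm_mul, norm_mul, norm_mul, norm_mul, RCLike.norm_conj, RCLike.norm_conj]
    refine (mul_le_mul_of_nonneg_left (int_term_le _ l η ρ hl hη hρ) (by positivity)).trans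
      (le_of_eq ?_)
    split_ifs <;> ring
  have e5 : (∑ g, ‖b g‖) ^ 4 = ∑ i, ∑ j, ∑ k, ∑ n, ‖b i‖ * ‖b j‖ * ‖b k‖ * ‖b n‖ := by
    rw [← sum4]
    ring
  rw [e5]
  simp only [Finset.mul_sum, ← Finset.sum_add_distrib]
  refine norm_sum_le_of_le _ fun i _ => norm_sum_le_of_le _ fun j _ =>
    norm_sum_le_of_le _ fun k _ => norm_sum_le_of_le _ fun n _ => e4 i j k n

theorem continuous_ff {ι : Type} (η : ℝ) (s : ι → ℝ) (g : Finset ι) (c : ι → ℂ) :
    Continuous fun t : ℝ => ff η s g c t := by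
  unfold ff
  fun_prop

/-- comparison of two integrals of fourth powers -/
theorem int_pow4_le {l S D : ℝ} (hl : 0 < l) {f g : ℝ → ℂ} (hf : Continuous f) (hg : Continuous g)
    (hfS : ∀ t, ‖f t‖ ≤ S) (hgS : ∀ t, ‖g t‖ ≤ S) (h : ∀ t ∈ Set.Icc 0 l, ‖f t - g t‖ ≤ D) :
    ∫ t in (0:ℝ)..l, ‖f t‖ ^ 4 ≤ (∫ t in (0:ℝ)..l, ‖g t‖ ^ 4) + l * (4 * S ^ 3 * D) := by
  have e : (∫ t in (0:ℝ)..l, ‖g t‖ ^ 4) + l * (4 * S ^ 3 * D) =
      ∫ t in (0:ℝ)..l, (‖g t‖ ^ 4 + 4 * S ^ 3 * D) := by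
    rw [intervalIntegral.integral_add (Continuous.intervalIntegrable (by fun_prop) _ _)
      (Continuous.intervalIntegrable (by fun_prop) _ _)]
    rw [intervalIntegral.integral_const, sub_zero, smul_eq_mul]
  rw [e]
  refine intervalIntegral.integral_mono_on hl.le (Continuous.intervalIntegrable (by fun_prop) _ _)
    (Continuous.intervalIntegrable (by fun_prop) _ _) fun t ht => ?_
  refine pow4_sub_le (norm_nonneg _) (norm_nonneg _) (hfS t) (hgS t) ?_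
  exact (abs_norm_sub_norm_le _ _).trans (h t ht)

theorem stSeg : StSeg := by
  classical
  obtain ⟨c1, hc1, hY⟩ := Vale.Agent.P112.H22.improved_young_gauge
  refine ⟨min c1 (1 / 2), by positivity, ?_⟩
  intro ι m K β A2 ρ η l s c P G hβ hβ1 hA2 hρ hη hl hlen hK hGm hU hne hdis hin hout hc
  -- the exponent
  have hlog1 : 1 ≤ Real.log ((m : ℝ) + 3) := by
    rw [Real.le_log_iff_exp_le (by positivity)]
    have : (0:ℝ) ≤ m := Nat.cast_nonneg _
    linarith [Real.exp_one_lt_d9]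
  have hβ0 : 0 < β := by
    have h1 : min c1 (1 / 2) / Real.log (m + 3) ≤ 1 / 2 := by
      rw [div_le_iff₀ (by linarith)]
      have := min_le_right c1 (1 / 2)
      linarith
    linarith
  have hRHS0 : 0 ≤ (∑ g ∈ G, (∫ t in (0:ℝ)..l, ‖ff η s g c t‖ ^ 4) / gg β g c ^ 2) +
      l * (14 * K ^ 3 / Real.sqrt A2) * ∑ i ∈ P, ‖c i‖ ^ 2 := by
    refine add_nonneg (Finset.sum_nonneg fun g _ => div_nonneg ?_ (sq_nonneg _)) (by positivity)
    exact intervalIntegral.integral_nonneg hl.le fun t _ => by positivity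
  rcases P.eq_empty_or_nonempty with hP | hP
  · have h0 : gg β P c = 0 := by
      rw [hP]
      simp [gg, Real.zero_rpow hβ0.ne']
    rw [h0]
    simpa using hRHS0
  have hM : 0 < gg β P c := gg_pos hβ0 hP hc
  have hgP : ∀ g ∈ G, g ⊆ P := fun g hg i hi => by
    rw [← hU]
    exact mem_U.mpr ⟨g, hg, hi⟩
  have hgc : ∀ g ∈ G, ∀ i ∈ g, c i ≠ 0 := fun g hg i hi => hc i (hgP g hg hi)
  have hMg : ∀ g ∈ G, 0 < gg β g c := fun g hg => gg_pos hβ0 (hne g hg) (hgc g hg)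
  have hgK : ∀ g ∈ G, g.card ≤ K := fun g hg => (Finset.card_le_card (hgP g hg)).trans hK
  have hsA : 0 < Real.sqrt A2 := Real.sqrt_pos.mpr (by linarith)
  have hsA2 : Real.sqrt A2 * Real.sqrt A2 = A2 := Real.mul_self_sqrt (by linarith)
  have hη' : 0 < |η| := abs_pos.mpr hη
  -- representatives
  have : Nonempty ι := ⟨hP.choose⟩
  choose! rep hrep using hne
  set b : Finset ι → ℂ := fun g => ∑ i ∈ g, c i with hb
  set Sg : Finset ι → ℝ := fun g => ∑ i ∈ g, ‖c i‖ with hSg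
  have hSg0 : ∀ g, 0 ≤ Sg g := fun g => Finset.sum_nonneg fun _ _ => norm_nonneg _
  have hbS : ∀ g, ‖b g‖ ≤ Sg g := fun g => norm_sum_le _ _
  have hSP : Sg P = ∑ g ∈ G, Sg g := by
    rw [hSg, ← hU]
    exact sum_U G hdis _
  have happ : ∀ g ∈ G, ∀ t ∈ Set.Icc (0:ℝ) l,
      ‖ff η s g c t - b g * Complex.exp (Complex.I * (η * s (rep g) * t : ℝ))‖ ≤
        Sg g * (1 / Real.sqrt A2) := by
    intro g hg t ht
    refine norm_ff_sub_le η s g c (s (rep g)) (1 / Real.sqrt A2) t fun i hi => ?_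
    have h1 := hin g hg i hi (rep g) (hrep g hg)
    have h2 : η * s i * t - η * s (rep g) * t = η * (s i - s (rep g)) * t := by ring
    rw [h2, abs_mul, abs_mul, abs_of_nonneg ht.1]
    rw [le_div_iff₀ hsA]
    have h3 : |η| * |s i - s (rep g)| * t ≤ |η| * |s i - s (rep g)| * l :=
      mul_le_mul_of_nonneg_left ht.2 (by positivity)
    have h4 : |η| * |s i - s (rep g)| * l * A2 ≤ Real.sqrt A2 := by
      calc |η| * |s i - s (rep g)| * l * A2 = |η| * l * (A2 * |s i - s (rep g)|) := by ring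
        _ ≤ |η| * l * ρ := mul_le_mul_of_nonneg_left h1 (by positivity)
        _ = Real.sqrt A2 := by rw [← hlen]; ring
    have h5 : |η| * |s i - s (rep g)| * l * Real.sqrt A2 * Real.sqrt A2 ≤ 1 * Real.sqrt A2 := by
      rw [mul_assoc, hsA2, one_mul]
      exact h4
    have h6 := le_of_mul_le_mul_right h5 hsA
    exact (mul_le_mul_of_nonneg_right h3 hsA.le).trans h6
  -- the sum over the groups
  have hffP : ∀ t, ff η s P c t = ∑ g ∈ G, ff η s g c t := by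
    intro t
    unfold ff
    rw [← hU]
    exact sum_U G hdis _
  have h1 : ∫ t in (0:ℝ)..l, ‖ff η s P c t‖ ^ 4 ≤
      (∫ t in (0:ℝ)..l, ‖∑ g : G, b g * Complex.exp (Complex.I * (η * s (rep g) * t : ℝ))‖ ^ 4) +
        l * (4 * Sg P ^ 3 * (Sg P * (1 / Real.sqrt A2))) := by
    refine int_pow4_le hl (continuous_ff η s P c) (by fun_prop) (fun t => norm_ff_le η s P c t)
      (fun t => ?_) (fun t ht => ?_)
    · rw [hSP, ← Finset.sum_coe_sort G Sg]
      refine norm_sum_le_of_le _ fun g _ => ?_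
      rw [norm_mul, mul_comm Complex.I, Complex.norm_exp_ofReal_mul_I, mul_one]
      exact hbS g
    · rw [hffP, ← Finset.sum_coe_sort G (fun g => ff η s g c t), ← Finset.sum_sub_distrib,
        hSP, ← Finset.sum_coe_sort G Sg, Finset.sum_mul]
      exact norm_sum_le_of_le _ fun g _ => happ g g.2 t ht
  -- the resonant part
  have h2 := int_B_le (fun g : G => s (rep g)) (fun g : G => b g) η l (ρ / 3) hl hη (by positivity)
  have hsep : ∀ g g' : G, g ≠ g' → ρ ≤ |s (rep g) - s (rep g')| := fun g g' hgg =>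
    hout g g.2 g' g'.2 (fun h => hgg (Subtype.ext h)) _ (hrep g g.2) _ (hrep g' g'.2)
  have h3 := hY G (fun g => s (rep g)) (ρ / 3) (by positivity)
    (fun g g' hgg => by
      have := hsep g g' hgg
      linarith)
    (fun g g' hgg h => by
      have := hsep g g' hgg
      rw [h, sub_self, abs_zero] at this
      linarith)
    (fun g => ‖b g‖) (fun g => gg β g c) (fun g => norm_nonneg _) (fun g => gg_nonneg β g c)
    (fun g h => absurd h (hMg g g.2).ne') β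
    (by
      refine le_trans ?_ hβ
      have hcard : ((Fintype.card G : ℕ) : ℝ) + 2 ≤ (m : ℝ) + 3 := by
        rw [Fintype.card_coe]
        have : (G.card : ℝ) ≤ m + 1 := by exact_mod_cast hGm
        linarith
      have hl1 : 0 < Real.log ((Fintype.card G : ℝ) + 2) := Real.log_pos (by
        have : (0:ℝ) ≤ (Fintype.card G : ℝ) := Nat.cast_nonneg _
        linarith)
      have hl2 : Real.log ((Fintype.card G : ℝ) + 2) ≤ Real.log ((m : ℝ) + 3) :=
        Real.log_le_log (by positivity) hcard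
      have : min c1 (1 / 2) / Real.log (m + 3) ≤ c1 / Real.log ((Fintype.card G : ℝ) + 2) :=
        div_le_div₀ hc1.le (min_le_left _ _) hl1 hl2
      linarith) hβ1
  have hMM : (∑ g : G, gg β g c ^ (1 / β)) ^ (2 * β) = gg β P c ^ 2 := by
    have e1 : (∑ g : G, gg β g c ^ (1 / β)) = ∑ i ∈ P, ‖c i‖ ^ (1 / β) := by
      rw [Finset.sum_coe_sort G (fun g => gg β g c ^ (1 / β)), ← hU, sum_U G hdis]
      refine Finset.sum_congr rfl fun g _ => ?_
      unfold gg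
      rw [← Real.rpow_mul (Finset.sum_nonneg fun _ _ => by positivity),
        mul_one_div_cancel hβ0.ne', Real.rpow_one]
    rw [e1]
    unfold gg
    rw [mul_comm, Real.rpow_mul (Finset.sum_nonneg fun _ _ => by positivity)]
    exact_mod_cast Real.rpow_natCast _ 2
  rw [hMM] at h3
  -- back to the groups
  have h4 : ∀ g ∈ G, l * ‖b g‖ ^ 4 ≤ (∫ t in (0:ℝ)..l, ‖ff η s g c t‖ ^ 4) +
      l * (4 * Sg g ^ 3 * (Sg g * (1 / Real.sqrt A2))) := by
    intro g hg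
    have e1 : l * ‖b g‖ ^ 4 = ∫ t in (0:ℝ)..l,
        ‖b g * Complex.exp (Complex.I * (η * s (rep g) * t : ℝ))‖ ^ 4 := by
      have : (fun t : ℝ => ‖b g * Complex.exp (Complex.I * (η * s (rep g) * t : ℝ))‖ ^ 4) =
          fun _ => ‖b g‖ ^ 4 := by
        funext t
        rw [norm_mul, mul_comm Complex.I, Complex.norm_exp_ofReal_mul_I, mul_one]
      rw [this]
      simp
    rw [e1]
    refine int_pow4_le hl (by fun_prop) (continuous_ff η s g c) (fun t => ?_)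
      (fun t => norm_ff_le η s g c t) (fun t ht => ?_)
    · rw [norm_mul, mul_comm Complex.I, Complex.norm_exp_ofReal_mul_I, mul_one]
      exact hbS g
    · rw [norm_sub_rev]
      exact happ g hg t ht
  have h5 : ∀ g ∈ G, l * (‖b g‖ ^ 4 / gg β g c ^ 2) ≤
      (∫ t in (0:ℝ)..l, ‖ff η s g c t‖ ^ 4) / gg β g c ^ 2 +
        l * (4 * K ^ 3 / Real.sqrt A2) * ∑ i ∈ g, ‖c i‖ ^ 2 := by
    intro g hg
    have hp := pow4_le hβ0 (hgK g hg) c (hMg g hg)
    have hM2 : 0 < gg β g c ^ 2 := pow_pos (hMg g hg) 2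
    calc l * (‖b g‖ ^ 4 / gg β g c ^ 2) = (l * ‖b g‖ ^ 4) / gg β g c ^ 2 := by ring
      _ ≤ ((∫ t in (0:ℝ)..l, ‖ff η s g c t‖ ^ 4) +
          l * (4 * Sg g ^ 3 * (Sg g * (1 / Real.sqrt A2)))) / gg β g c ^ 2 :=
        div_le_div_of_nonneg_right (h4 g hg) hM2.le
      _ = (∫ t in (0:ℝ)..l, ‖ff η s g c t‖ ^ 4) / gg β g c ^ 2 +
          l * (4 / Real.sqrt A2) * (Sg g ^ 4 / gg β g c ^ 2) := by ring
      _ ≤ (∫ t in (0:ℝ)..l, ‖ff η s g c t‖ ^ 4) / gg β g c ^ 2 +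
          l * (4 / Real.sqrt A2) * (K ^ 3 * ∑ i ∈ g, ‖c i‖ ^ 2) := by gcongr
      _ = _ := by ring
  -- assembly
  have hpP := pow4_le hβ0 hK c hM
  have hM2 : 0 < gg β P c ^ 2 := pow_pos hM 2
  have hsumP : ∑ i ∈ P, ‖c i‖ ^ 2 = ∑ g ∈ G, ∑ i ∈ g, ‖c i‖ ^ 2 := by
    rw [← hU]
    exact sum_U G hdis _
  have hB4 : (∑ g : G, ‖b g‖) ^ 4 ≤ Sg P ^ 4 := by
    refine pow_le_pow_left₀ (Finset.sum_nonneg fun _ _ => norm_nonneg _) ?_ 4
    rw [hSP, ← Finset.sum_coe_sort G Sg]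
    exact Finset.sum_le_sum fun g _ => hbS g
  have h6 : 2 / (|η| * (ρ / 3)) = 6 * l / Real.sqrt A2 := by
    rw [← hlen]
    field_simp
    norm_num
  rw [h6] at h2
  have h7 : ∫ t in (0:ℝ)..l, ‖ff η s P c t‖ ^ 4 ≤
      l * (gg β P c ^ 2 * ∑ g ∈ G, ‖b g‖ ^ 4 / gg β g c ^ 2) +
        l * (10 / Real.sqrt A2) * Sg P ^ 4 := by
    have e1 : l * (∑ i : G, ∑ j : G, ∑ k : G, ∑ n : G,
        (if |s (rep i) + s (rep j) - s (rep k) - s (rep n)| ≤ ρ / 3 then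
        ‖b i‖ * ‖b j‖ * ‖b k‖ * ‖b n‖ else 0)) ≤
        l * (gg β P c ^ 2 * ∑ g ∈ G, ‖b g‖ ^ 4 / gg β g c ^ 2) := by
      refine mul_le_mul_of_nonneg_left ?_ hl.le
      rw [← Finset.sum_coe_sort G (fun g => ‖b g‖ ^ 4 / gg β g c ^ 2)]
      exact h3
    have e2 : 6 * l / Real.sqrt A2 * (∑ g : G, ‖b g‖) ^ 4 ≤ 6 * l / Real.sqrt A2 * Sg P ^ 4 :=
      mul_le_mul_of_nonneg_left hB4 (by positivity)
    calc _ ≤ _ := h1
      _ ≤ (l * (gg β P c ^ 2 * ∑ g ∈ G, ‖b g‖ ^ 4 / gg β g c ^ 2) +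
          6 * l / Real.sqrt A2 * Sg P ^ 4) +
          l * (4 * Sg P ^ 3 * (Sg P * (1 / Real.sqrt A2))) := by
        refine add_le_add (h2.trans (add_le_add e1 e2)) le_rfl
      _ = _ := by ring
  calc (∫ t in (0:ℝ)..l, ‖ff η s P c t‖ ^ 4) / gg β P c ^ 2 ≤
      (l * (gg β P c ^ 2 * ∑ g ∈ G, ‖b g‖ ^ 4 / gg β g c ^ 2) +
        l * (10 / Real.sqrt A2) * Sg P ^ 4) / gg β P c ^ 2 :=
        div_le_div_of_nonneg_right h7 hM2.le
    _ = (∑ g ∈ G, l * (‖b g‖ ^ 4 / gg β g c ^ 2)) +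
        l * (10 / Real.sqrt A2) * (Sg P ^ 4 / gg β P c ^ 2) := by
        rw [← Finset.mul_sum]
        field_simp
    _ ≤ (∑ g ∈ G, ((∫ t in (0:ℝ)..l, ‖ff η s g c t‖ ^ 4) / gg β g c ^ 2 +
          l * (4 * K ^ 3 / Real.sqrt A2) * ∑ i ∈ g, ‖c i‖ ^ 2)) +
        l * (10 / Real.sqrt A2) * (K ^ 3 * ∑ i ∈ P, ‖c i‖ ^ 2) := by
        refine add_le_add (Finset.sum_le_sum h5) ?_
        exact mul_le_mul_of_nonneg_left hpP (by positivity)
    _ = _ := by
        rw [Finset.sum_add_distrib, ← Finset.mul_sum, ← hsumP]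
        ring

end Vale.Agent.P112.H51
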